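import Mathlib

namespace Vale.Agent.Results.P339.A_AlphabetMonotone

open Finset

/-- A 2-to-1 game with alphabets `Fin (2 * q)` (left) and `Fin q` (right), vertex sets `U`, `V`,
constraint index set `E`: constraint `e` joins `src e` to `tgt e`, carries the map `proj e`
all of whose fibres have exactly two elements, and has probability `mu e`. -/
structure Game (q : ℕ) (U V E : Type) [Fintype E] where
  src : E → U
  tgt : E → V
  proj : E → Fin (2 * q) → Fin q
  fibre : ∀ e b, (univ.filter (fun a => proj e a = b)).card = 2
  mu : E → ℝ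
  mu_nonneg : ∀ e, 0 ≤ mu e
  mu_sum : ∑ e, mu e = 1

/-- The probability that a random constraint is satisfied by the labeling `A`, `B`. -/
noncomputable def Game.val {q : ℕ} {U V E : Type} [Fintype E] (G : Game q U V E)
    (A : U → Fin (2 * q)) (B : V → Fin q) : ℝ :=
  ∑ e, if G.proj e (A (G.src e)) = B (G.tgt e) then G.mu e else 0

/-- The value of the game: the supremum (a maximum, for finite `U`, `V`) over all labelings. -/
noncomputable def Game.value {q : ℕ} {U V E : Type} [Fintype E] (G : Game q U V E) : ℝ :=
  ⨆ L : (U → Fin (2 * q)) × (V → Fin q), G.val L.1 L.2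

/-- Cyclic shift of `c` by `k` modulo `t` (for `c, k < t`). -/
def shift (t c k : ℕ) : ℕ := if c + k < t then c + k else c + k - t

/-- The `k`-th extension of a constraint map `p` to the alphabets `Fin (2 * (q + t))`,
`Fin (q + t)`: a label `a < 2q` goes to `p a`, and the new labels `2q + 2c`, `2q + 2c + 1` go to
the new right label `q + ((c + k) mod t)`. -/
def extk {q : ℕ} (t : ℕ) (k : Fin t) (p : Fin (2 * q) → Fin q) (a : Fin (2 * (q + t))) :
    Fin (q + t) :=
  if h : a.val < 2 * q then ⟨(p ⟨a.val, h⟩).val, by have := (p ⟨a.val, h⟩).isLt; omega⟩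
  else ⟨q + shift t ((a.val - 2 * q) / 2) k.val, by
    have h1 := a.isLt
    have h2 := k.isLt
    unfold shift
    split_ifs <;> omega⟩

theorem extk_old {q : ℕ} (t : ℕ) (k : Fin t) (p : Fin (2 * q) → Fin q) (a : Fin (2 * (q + t)))
    (h : a.val < 2 * q) : (extk t k p a).val = (p ⟨a.val, h⟩).val := by
  simp only [extk, dif_pos h]

theorem extk_new {q : ℕ} (t : ℕ) (k : Fin t) (p : Fin (2 * q) → Fin q) (a : Fin (2 * (q + t)))
    (h : ¬ a.val < 2 * q) :
    (extk t k p a).val = q + shift t ((a.val - 2 * q) / 2) k.val := by
  simp only [extk, dif_neg h]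

theorem extk_fibre {q : ℕ} (t : ℕ) (k : Fin t) (p : Fin (2 * q) → Fin q)
    (hp : ∀ b, (univ.filter (fun a => p a = b)).card = 2) (b : Fin (q + t)) :
    (univ.filter (fun a => extk t k p a = b)).card = 2 := by
  have hb := b.isLt
  have hk := k.isLt
  by_cases hbq : b.val < q
  · obtain ⟨x, y, hxy, hs⟩ := Finset.card_eq_two.1 (hp ⟨b.val, hbq⟩)
    have hmem : ∀ j, p j = ⟨b.val, hbq⟩ ↔ j = x ∨ j = y := by
      intro j
      have := Finset.ext_iff.1 hs j
      simpa using this
    have hx := x.isLt
    have hy := y.isLt
    rw [Finset.card_eq_two]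
    refine ⟨⟨x.val, by omega⟩, ⟨y.val, by omega⟩, ?_, ?_⟩
    · intro h
      apply hxy
      apply Fin.ext
      have h' := congrArg Fin.val h
      exact h'
    · ext a
      simp only [Finset.mem_filter, Finset.mem_univ, true_and, Finset.mem_insert,
        Finset.mem_singleton]
      constructor
      · intro h
        have hv := congrArg Fin.val h
        by_cases ha : a.val < 2 * q
        · rw [extk_old t k p a ha] at hv
          have h1 : p ⟨a.val, ha⟩ = ⟨b.val, hbq⟩ := Fin.ext hv
          rcases (hmem _).1 h1 with h2 | h2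
          · left
            apply Fin.ext
            have h' := congrArg Fin.val h2
            exact h'
          · right
            apply Fin.ext
            have h' := congrArg Fin.val h2
            exact h'
        · rw [extk_new t k p a ha] at hv
          omega
      · rintro (h | h)
        · apply Fin.ext
          rw [h, extk_old t k p _ hx]
          have := (hmem x).2 (Or.inl rfl)
          exact congrArg Fin.val this
        · apply Fin.ext
          rw [h, extk_old t k p _ hy]
          have := (hmem y).2 (Or.inr rfl)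
          exact congrArg Fin.val this
  · obtain ⟨c, hc, hcs, huniq⟩ : ∃ c, c < t ∧ shift t c k.val = b.val - q ∧
        ∀ c', c' < t → shift t c' k.val = b.val - q → c' = c := by
      by_cases hkb : k.val ≤ b.val - q
      · refine ⟨b.val - q - k.val, by omega, ?_, ?_⟩
        · unfold shift
          split_ifs <;> omega
        · intro c' hc'
          unfold shift
          split_ifs <;> omega
      · refine ⟨b.val - q + t - k.val, by omega, ?_, ?_⟩
        · unfold shift
          split_ifs <;> omega
        · intro c' hc'
          unfold shift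
          split_ifs <;> omega
    rw [Finset.card_eq_two]
    refine ⟨⟨2 * q + 2 * c, by omega⟩, ⟨2 * q + 2 * c + 1, by omega⟩, ?_, ?_⟩
    · intro h
      have := congrArg Fin.val h
      simp only at this
      omega
    · ext a
      have ha' := a.isLt
      simp only [Finset.mem_filter, Finset.mem_univ, true_and, Finset.mem_insert,
        Finset.mem_singleton]
      constructor
      · intro h
        have hv := congrArg Fin.val h
        by_cases ha : a.val < 2 * q
        · rw [extk_old t k p a ha] at hv
          have := (p ⟨a.val, ha⟩).isLt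
          omega
        · rw [extk_new t k p a ha] at hv
          have h1 : (a.val - 2 * q) / 2 = c := huniq _ (by omega) (by omega)
          rw [Fin.ext_iff, Fin.ext_iff]
          simp only
          omega
      · rintro (h | h)
        · apply Fin.ext
          rw [h, extk_new t k p _ (by simp)]
          have h1 : (2 * q + 2 * c - 2 * q) / 2 = c := by omega
          simp only [h1, hcs]
          omega
        · apply Fin.ext
          rw [h, extk_new t k p _ (by simp; omega)]
          have h1 : (2 * q + 2 * c + 1 - 2 * q) / 2 = c := by omega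
          simp only [h1, hcs]
          omega

/-- The lifted game on the alphabets `Fin (2 * (q + t))`, `Fin (q + t)`, with the same vertex
sets: every constraint `e = (u, v, p)` of `G` is replaced by the `t` constraints
`(u, v, extk t k p)`, `k < t`, each of probability `mu e / t`. -/
noncomputable def lift {q t : ℕ} (ht : 0 < t) {U V E : Type} [Fintype E]
    (G : Game q U V E) : Game (q + t) U V (E × Fin t) where
  src := fun x => G.src x.1
  tgt := fun x => G.tgt x.1
  proj := fun x => extk t x.2 (G.proj x.1)
  fibre := fun x b => extk_fibre t x.2 _ (G.fibre x.1) b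
  mu := fun x => G.mu x.1 / t
  mu_nonneg := fun x => div_nonneg (G.mu_nonneg x.1) (Nat.cast_nonneg t)
  mu_sum := by
    have ht' : (t : ℝ) ≠ 0 := by exact_mod_cast ht.ne'
    rw [Fintype.sum_prod_type]
    simp only [Finset.sum_const, Finset.card_univ, Fintype.card_fin, nsmul_eq_mul]
    rw [← Finset.mul_sum, ← Finset.sum_div, G.mu_sum]
    field_simp

variable {q : ℕ} {U V E : Type} [Fintype E]

theorem val_le_one (G : Game q U V E) (A : U → Fin (2 * q)) (B : V → Fin q) : G.val A B ≤ 1 := by
  unfold Game.val
  rw [← G.mu_sum]
  apply Finset.sum_le_sum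
  intro e _
  split_ifs
  · exact le_rfl
  · exact G.mu_nonneg e

theorem bdd (G : Game q U V E) :
    BddAbove (Set.range fun L : (U → Fin (2 * q)) × (V → Fin q) => G.val L.1 L.2) := by
  refine ⟨1, ?_⟩
  rintro _ ⟨L, rfl⟩
  exact val_le_one G L.1 L.2

theorem val_le_value (G : Game q U V E) (A : U → Fin (2 * q)) (B : V → Fin q) :
    G.val A B ≤ G.value :=
  le_ciSup (bdd G) (A, B)

theorem lift_val {t : ℕ} (ht : 0 < t) (G : Game q U V E) (A' : U → Fin (2 * (q + t)))
    (B' : V → Fin (q + t)) :
    (lift ht G).val A' B' = ∑ e, ∑ k : Fin t,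
      (if extk t k (G.proj e) (A' (G.src e)) = B' (G.tgt e) then G.mu e / t else 0) := by
  unfold Game.val
  rw [Fintype.sum_prod_type]
  rfl

/-- Old left label read off from a label of the larger alphabet (new labels are read as `0`). -/
def pullL (hq : 0 < q) {t : ℕ} (a : Fin (2 * (q + t))) : Fin (2 * q) :=
  if h : a.val < 2 * q then ⟨a.val, h⟩ else ⟨0, by omega⟩

/-- Old right label read off from a label of the larger alphabet (new labels are read as `b0`). -/
def pullR (b0 : Fin q) {t : ℕ} (b : Fin (q + t)) : Fin q :=
  if h : b.val < q then ⟨b.val, h⟩ else b0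

theorem sum_const_ite {t : ℕ} (ht : 0 < t) (c : Prop) [Decidable c] (m : ℝ) :
    ∑ _k : Fin t, (if c then m / t else 0) = if c then m else 0 := by
  have ht' : (t : ℝ) ≠ 0 := by exact_mod_cast ht.ne'
  rw [Finset.sum_const, Finset.card_univ, Fintype.card_fin, nsmul_eq_mul]
  split_ifs
  · field_simp
  · simp

theorem key (hq : 0 < q) {t : ℕ} (hqt : q ≤ t) (p : Fin (2 * q) → Fin q)
    (a : Fin (2 * (q + t))) (b : Fin (q + t)) (m : ℝ) (hm : 0 ≤ m) :
    ∑ k : Fin t, (if extk t k p a = b then m / t else 0) ≤
      (∑ b0 : Fin q, (if p (pullL hq a) = pullR b0 b then m else 0)) / q := by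
  have ht : 0 < t := lt_of_lt_of_le hq hqt
  have hq' : (0 : ℝ) < q := by exact_mod_cast hq
  have ht' : (0 : ℝ) < t := by exact_mod_cast ht
  have hrhs : 0 ≤ (∑ b0 : Fin q, (if p (pullL hq a) = pullR b0 b then m else 0)) / q := by
    apply div_nonneg _ hq'.le
    apply Finset.sum_nonneg
    intro b0 _
    split_ifs
    · exact hm
    · exact le_rfl
  by_cases ha : a.val < 2 * q
  · by_cases hb : b.val < q
    · have hiff : ∀ k : Fin t, (extk t k p a = b) ↔ p ⟨a.val, ha⟩ = ⟨b.val, hb⟩ := by
        intro k
        rw [Fin.ext_iff, extk_old t k p a ha, Fin.ext_iff]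
      simp only [hiff, pullL, pullR, dif_pos ha, dif_pos hb]
      rw [sum_const_ite ht, Finset.sum_const, Finset.card_univ, Fintype.card_fin, nsmul_eq_mul]
      apply le_of_eq
      field_simp
    · have hno : ∀ k : Fin t, ¬ (extk t k p a = b) := by
        intro k h
        have hv := congrArg Fin.val h
        rw [extk_old t k p a ha] at hv
        have := (p ⟨a.val, ha⟩).isLt
        omega
      simp only [hno, if_false, Finset.sum_const_zero]
      exact hrhs
  · by_cases hb : b.val < q
    · have hno : ∀ k : Fin t, ¬ (extk t k p a = b) := by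
        intro k h
        have hv := congrArg Fin.val h
        rw [extk_new t k p a ha] at hv
        omega
      simp only [hno, if_false, Finset.sum_const_zero]
      exact hrhs
    · have hR : (∑ b0 : Fin q, (if p (pullL hq a) = pullR b0 b then m else 0)) = m := by
        simp only [pullR, dif_neg hb]
        simp
      rw [hR]
      have hL : ∑ k : Fin t, (if extk t k p a = b then m / t else 0) ≤ m / t := by
        rw [← Finset.sum_filter, Finset.sum_const, nsmul_eq_mul]
        have hcard : (univ.filter (fun k : Fin t => extk t k p a = b)).card ≤ 1 := by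
          rw [Finset.card_le_one]
          intro k1 hk1 k2 hk2
          have h1 := congrArg Fin.val (Finset.mem_filter.1 hk1).2
          have h2 := congrArg Fin.val (Finset.mem_filter.1 hk2).2
          rw [extk_new t k1 p a ha] at h1
          rw [extk_new t k2 p a ha] at h2
          have hk1' := k1.isLt
          have hk2' := k2.isLt
          have ha' := a.isLt
          apply Fin.ext
          unfold shift at h1 h2
          split_ifs at h1 h2 <;> omega
        have hcard' : ((univ.filter (fun k : Fin t => extk t k p a = b)).card : ℝ) ≤ 1 := by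
          exact_mod_cast hcard
        have hmt : 0 ≤ m / t := div_nonneg hm ht'.le
        nlinarith
      refine le_trans hL ?_
      apply div_le_div_of_nonneg_left hm hq'
      exact_mod_cast hqt

theorem lift_val_le (hq : 0 < q) {t : ℕ} (hqt : q ≤ t) (ht : 0 < t) (G : Game q U V E)
    (A' : U → Fin (2 * (q + t))) (B' : V → Fin (q + t)) :
    (lift ht G).val A' B' ≤ G.value := by
  have hq' : (q : ℝ) ≠ 0 := by exact_mod_cast hq.ne'
  have hq'' : (0 : ℝ) ≤ q := Nat.cast_nonneg q
  rw [lift_val]
  calc _ ≤ ∑ e, (∑ b0 : Fin q, (if G.proj e (pullL hq (A' (G.src e))) = pullR b0 (B' (G.tgt e))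
            then G.mu e else 0)) / q :=
        Finset.sum_le_sum (fun e _ => key hq hqt _ _ _ _ (G.mu_nonneg e))
    _ = (∑ b0 : Fin q, G.val (fun u => pullL hq (A' u)) (fun v => pullR b0 (B' v))) / q := by
        rw [← Finset.sum_div, Finset.sum_comm]
        rfl
    _ ≤ (∑ _b0 : Fin q, G.value) / q := by
        apply div_le_div_of_nonneg_right _ hq''
        exact Finset.sum_le_sum (fun b0 _ => val_le_value G _ _)
    _ = G.value := by
        rw [Finset.sum_const, Finset.card_univ, Fintype.card_fin, nsmul_eq_mul]
        field_simp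

theorem le_lift_value {t : ℕ} (ht : 0 < t) (G : Game q U V E) (A : U → Fin (2 * q))
    (B : V → Fin q) : G.val A B ≤ (lift ht G).value := by
  refine le_trans (le_of_eq ?_) (val_le_value (lift ht G)
    (fun u => ⟨(A u).val, by have := (A u).isLt; omega⟩)
    (fun v => ⟨(B v).val, by have := (B v).isLt; omega⟩))
  rw [lift_val]
  unfold Game.val
  apply Finset.sum_congr rfl
  intro e _
  have hiff : ∀ k : Fin t, (extk t k (G.proj e) ⟨(A (G.src e)).val, by
      have := (A (G.src e)).isLt; omega⟩ = ⟨(B (G.tgt e)).val, by
      have := (B (G.tgt e)).isLt; omega⟩) ↔ G.proj e (A (G.src e)) = B (G.tgt e) := by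
    intro k
    rw [Fin.ext_iff, extk_old t k _ _ (A (G.src e)).isLt, Fin.ext_iff]
  simp only [hiff]
  rw [sum_const_ite ht]

theorem lift_value (hq : 0 < q) {t : ℕ} (hqt : q ≤ t) (ht : 0 < t) (G : Game q U V E) :
    (lift ht G).value = G.value := by
  have : Nonempty ((U → Fin (2 * q)) × (V → Fin q)) :=
    ⟨(fun _ => ⟨0, by omega⟩, fun _ => ⟨0, hq⟩)⟩
  have : Nonempty ((U → Fin (2 * (q + t))) × (V → Fin (q + t))) :=
    ⟨(fun _ => ⟨0, by omega⟩, fun _ => ⟨0, by omega⟩)⟩
  apply le_antisymm
  · exact ciSup_le (fun L => lift_val_le hq hqt ht G L.1 L.2)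
  · exact ciSup_le (fun L => le_lift_value ht G L.1 L.2)

/-- For all `2 ≤ q ≤ t`, the explicit local transformation `lift` turns a 2-to-1 game `G` with
alphabets of sizes `2q`, `q` into a 2-to-1 game on the same vertex sets with alphabets of sizes
`2(q+t)`, `q+t` and `t` times as many constraints, which has exactly the same value. -/
theorem result :
    ∀ (q t : ℕ) (hq : 2 ≤ q) (hqt : q ≤ t) (U V E : Type) [Finite U] [Finite V] [Fintype E]
      (G : Game q U V E),
      (lift (lt_of_lt_of_le (lt_of_lt_of_le Nat.zero_lt_two hq) hqt) G).value = G.value := by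
  intro q t hq hqt U V E _ _ _ G
  exact lift_value (lt_of_lt_of_le Nat.zero_lt_two hq) hqt _ G

end Vale.Agent.Results.P339.A_AlphabetMonotone
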