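import Mathlib

namespace Vale.Agent.Results.P339.A_BinaryAffine

open Finset

/-- A 2-to-1 game with alphabets `Fin (2 * q)` (left) and `Fin q` (right), vertex sets `U`, `V`,
constraint index set `E`: constraint `e` joins `src e` to `tgt e`, carries the map `proj e`
all of whose fibres have exactly two elements, and has probability `mu e`. -/
structure Game (q : ℕ) (U V E : Type) [Fintype E] where
  src : E → U
  tgt : E → V
  proj : E → Fin (2 * q) → Fin q
  fibre : ∀ e b, (univ.filter (fun a => proj e a = b)).card = 2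
  mu : E → ℝ
  mu_nonneg : ∀ e, 0 ≤ mu e
  mu_sum : ∑ e, mu e = 1

variable {q : ℕ} {U V E : Type} [Fintype E]

/-- The probability that a random constraint is satisfied by the labeling `A`, `B`. -/
noncomputable def Game.val (G : Game q U V E) (A : U → Fin (2 * q)) (B : V → Fin q) : ℝ :=
  ∑ e, if G.proj e (A (G.src e)) = B (G.tgt e) then G.mu e else 0

/-- The value of the game: the supremum (a maximum, for finite `U`, `V`) over all labelings. -/
noncomputable def Game.value (G : Game q U V E) : ℝ :=
  ⨆ L : (U → Fin (2 * q)) × (V → Fin q), G.val L.1 L.2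

/-- High bit of a left label `a` in `{0,1,2,3}`. -/
def hi (a : Fin (2 * 2)) : ZMod 2 := ((a.val / 2 : ℕ) : ZMod 2)

/-- Low bit of a left label. -/
def lo (a : Fin (2 * 2)) : ZMod 2 := ((a.val % 2 : ℕ) : ZMod 2)

/-- The bit of a right label in `{0,1}`. -/
def bit (b : Fin 2) : ZMod 2 := ((b.val : ℕ) : ZMod 2)

/-- Coefficient of the high bit in the equation attached to the map `p`. -/
def cHi (p : Fin (2 * 2) → Fin 2) : ZMod 2 := bit (p 2) + bit (p 0)

/-- Coefficient of the low bit. -/
def cLo (p : Fin (2 * 2) → Fin 2) : ZMod 2 := bit (p 1) + bit (p 0)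

/-- Constant term. -/
def c0 (p : Fin (2 * 2) → Fin 2) : ZMod 2 := bit (p 0)

theorem affine_key : ∀ p : Fin (2 * 2) → Fin 2,
    (∀ b, (univ.filter (fun a => p a = b)).card = 2) →
    ((cHi p ≠ 0 ∨ cLo p ≠ 0) ∧ ∀ a, bit (p a) = cHi p * hi a + cLo p * lo a + c0 p) := by
  decide

theorem bit_inj : ∀ b b' : Fin 2, bit b = bit b' ↔ b = b' := by decide

theorem enc_surj : ∀ s t : ZMod 2, ∃ a : Fin (2 * 2), hi a = s ∧ lo a = t := by decide

theorem bit_surj : ∀ s : ZMod 2, ∃ b : Fin 2, bit b = s := by decide

theorem val_le_one (G : Game q U V E) (A : U → Fin (2 * q)) (B : V → Fin q) : G.val A B ≤ 1 := by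
  unfold Game.val
  rw [← G.mu_sum]
  apply Finset.sum_le_sum
  intro e _
  split_ifs
  · exact le_rfl
  · exact G.mu_nonneg e

theorem bdd (G : Game q U V E) :
    BddAbove (Set.range fun L : (U → Fin (2 * q)) × (V → Fin q) => G.val L.1 L.2) := by
  refine ⟨1, ?_⟩
  rintro _ ⟨L, rfl⟩
  exact val_le_one G L.1 L.2

theorem val_le_value (G : Game q U V E) (A : U → Fin (2 * q)) (B : V → Fin q) :
    G.val A B ≤ G.value :=
  le_ciSup (bdd G) (A, B)

theorem sat_iff (G : Game 2 U V E) (A : U → Fin (2 * 2)) (B : V → Fin 2) (e : E) :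
    G.proj e (A (G.src e)) = B (G.tgt e) ↔
      cHi (G.proj e) * hi (A (G.src e)) + cLo (G.proj e) * lo (A (G.src e)) + c0 (G.proj e)
        = bit (B (G.tgt e)) := by
  rw [← (affine_key _ (G.fibre e)).2, bit_inj]

theorem val_eq_one_iff (G : Game q U V E) (A : U → Fin (2 * q)) (B : V → Fin q) :
    G.val A B = 1 ↔ ∀ e, G.mu e ≠ 0 → G.proj e (A (G.src e)) = B (G.tgt e) := by
  constructor
  · intro h e he
    by_contra hne
    have h1 : G.val A B < ∑ e, G.mu e := by
      unfold Game.val
      apply Finset.sum_lt_sum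
      · intro e _
        split_ifs
        · exact le_rfl
        · exact G.mu_nonneg e
      · refine ⟨e, Finset.mem_univ e, ?_⟩
        rw [if_neg hne]
        exact lt_of_le_of_ne (G.mu_nonneg e) (Ne.symm he)
    rw [G.mu_sum, h] at h1
    exact lt_irrefl _ h1
  · intro h
    unfold Game.val
    rw [← G.mu_sum]
    apply Finset.sum_congr rfl
    intro e _
    by_cases he : G.mu e = 0
    · simp [he]
    · rw [if_pos (h e he)]

theorem value_ge (hq : 1 ≤ q) (G : Game q U V E) : 1 / (q : ℝ) ≤ G.value := by
  have : NeZero q := ⟨by omega⟩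
  have : NeZero (2 * q) := ⟨by omega⟩
  let A : U → Fin (2 * q) := fun _ => 0
  have hsum : ∑ b : Fin q, G.val A (fun _ => b) = 1 := by
    unfold Game.val
    rw [Finset.sum_comm, ← G.mu_sum]
    apply Finset.sum_congr rfl
    intro e _
    simp
  have hq0 : (q : ℝ) ≠ 0 := by
    have : (0 : ℝ) < q := by exact_mod_cast hq
    exact ne_of_gt this
  obtain ⟨b, -, hb⟩ := Finset.exists_le_of_sum_le (s := (univ : Finset (Fin q)))
    (f := fun _ => 1 / (q : ℝ)) (g := fun b => G.val A (fun _ => b)) ⟨0, Finset.mem_univ _⟩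
    (by rw [hsum]; simp [hq0])
  exact le_trans hb (val_le_value G A _)

/-- (1) In a 2-to-1 game with `q = 2` every constraint is an equation over the field with two
elements in the bits of the labels, with explicit coefficients that are not both zero;
(2) such a game has value `1` iff the resulting linear system (equations of positive
probability) is solvable; (3) every 2-to-1 game with right alphabet of size `q` has value at
least `1 / q`. -/
theorem result :
    (∀ (U V E : Type) [Finite U] [Finite V] [Fintype E] (G : Game 2 U V E),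
      (∀ e, cHi (G.proj e) ≠ 0 ∨ cLo (G.proj e) ≠ 0) ∧
      (∀ (A : U → Fin (2 * 2)) (B : V → Fin 2) (e : E),
        G.proj e (A (G.src e)) = B (G.tgt e) ↔
          cHi (G.proj e) * hi (A (G.src e)) + cLo (G.proj e) * lo (A (G.src e)) + c0 (G.proj e)
            = bit (B (G.tgt e))) ∧
      (G.value = 1 ↔ ∃ (x y : U → ZMod 2) (z : V → ZMod 2), ∀ e, G.mu e ≠ 0 →
          cHi (G.proj e) * x (G.src e) + cLo (G.proj e) * y (G.src e) + c0 (G.proj e)
            = z (G.tgt e))) ∧
    (∀ (q : ℕ), 2 ≤ q → ∀ (U V E : Type) [Finite U] [Finite V] [Fintype E] (G : Game q U V E),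
      1 / (q : ℝ) ≤ G.value) := by
  refine ⟨?_, ?_⟩
  · intro U V E _ _ _ G
    refine ⟨fun e => (affine_key _ (G.fibre e)).1, sat_iff G, ?_⟩
    constructor
    · intro h
      obtain ⟨L, hL⟩ := exists_eq_ciSup_of_finite
        (f := fun L : (U → Fin (2 * 2)) × (V → Fin 2) => G.val L.1 L.2)
      have h1 : G.val L.1 L.2 = 1 := by rw [← h]; exact hL
      rw [val_eq_one_iff] at h1
      refine ⟨fun u => hi (L.1 u), fun u => lo (L.1 u), fun v => bit (L.2 v), ?_⟩
      intro e he
      exact (sat_iff G L.1 L.2 e).1 (h1 e he)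
    · rintro ⟨x, y, z, h⟩
      choose a ha using enc_surj
      choose b hb using bit_surj
      have h1 : G.val (fun u => a (x u) (y u)) (fun v => b (z v)) = 1 := by
        rw [val_eq_one_iff]
        intro e he
        refine (sat_iff G (fun u => a (x u) (y u)) (fun v => b (z v)) e).2 ?_
        simp only [(ha _ _).1, (ha _ _).2, hb]
        exact h e he
      apply le_antisymm
      · exact ciSup_le (fun L => val_le_one G L.1 L.2)
      · rw [← h1]; exact val_le_value G _ _
  · intro q hq U V E _ _ _ G
    exact value_ge (by omega) G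

end Vale.Agent.Results.P339.A_BinaryAffine
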