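import Vale.Agent.Results.P339.A0_AllAlphabets
import Vale.Agent.Results.P339.A_AlphabetMonotone
import Vale.Agent.Results.P339.A_BinaryAffine

/-!
# P339: the different results on 2-to-1 games in one statement

(1) lift from right alphabet `q` to every `q' > q`, with value `(2 + value) / 3`;
(2) value-preserving lift from right alphabet `q` to `q + t` for every `t ≥ q`;
(3) for `q = 2` a game is a system of linear equations over `ZMod 2`;
(4) the value of a game with right alphabet `q` is at least `1 / q`.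
-/

namespace Vale.Agent.Results.P339.A00_Combined

theorem result :
    (∀ (q q' : ℕ) (hq : 2 ≤ q) (hq' : q < q') (U V E : Type) [Finite U] [Finite V]
      [Fintype E] (G : A_BinaryAffine.Game q U V E),
      (A0_AllAlphabets.lift hq hq' G).value = (2 + G.value) / 3 ∧
      (G.value = 1 ↔ (A0_AllAlphabets.lift hq hq' G).value = 1) ∧
      ∀ s : ℝ, G.value ≤ s → (A0_AllAlphabets.lift hq hq' G).value ≤ (2 + s) / 3) ∧
    (∀ (q t : ℕ) (hq : 2 ≤ q) (hqt : q ≤ t) (U V E : Type) [Finite U] [Finite V] [Fintype E]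
      (G : A_AlphabetMonotone.Game q U V E),
      (A_AlphabetMonotone.lift
        (lt_of_lt_of_le (lt_of_lt_of_le Nat.zero_lt_two hq) hqt) G).value = G.value) ∧
    (∀ (U V E : Type) [Finite U] [Finite V] [Fintype E] (G : A_BinaryAffine.Game 2 U V E),
      (∀ e, A_BinaryAffine.cHi (G.proj e) ≠ 0 ∨ A_BinaryAffine.cLo (G.proj e) ≠ 0) ∧
      (∀ (A : U → Fin (2 * 2)) (B : V → Fin 2) (e : E),
        G.proj e (A (G.src e)) = B (G.tgt e) ↔
          A_BinaryAffine.cHi (G.proj e) * A_BinaryAffine.hi (A (G.src e))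
            + A_BinaryAffine.cLo (G.proj e) * A_BinaryAffine.lo (A (G.src e))
            + A_BinaryAffine.c0 (G.proj e)
            = A_BinaryAffine.bit (B (G.tgt e))) ∧
      (G.value = 1 ↔ ∃ (x y : U → ZMod 2) (z : V → ZMod 2), ∀ e, G.mu e ≠ 0 →
          A_BinaryAffine.cHi (G.proj e) * x (G.src e) + A_BinaryAffine.cLo (G.proj e) * y (G.src e)
            + A_BinaryAffine.c0 (G.proj e)
            = z (G.tgt e))) ∧
    (∀ (q : ℕ), 2 ≤ q → ∀ (U V E : Type) [Finite U] [Finite V] [Fintype E]
      (G : A_BinaryAffine.Game q U V E), 1 / (q : ℝ) ≤ G.value) :=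
  ⟨fun q q' hq hq' U V E _ _ _ G => A0_AllAlphabets.result q q' hq hq' U V E G,
    A_AlphabetMonotone.result, A_BinaryAffine.result.1, A_BinaryAffine.result.2⟩

end Vale.Agent.Results.P339.A00_Combined
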