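import Vale.Agent.Results.P339.A_BinaryAffine

namespace Vale.Agent.Results.P339.A0_AllAlphabets

open Finset
open Vale.Agent.Results.P339.A_BinaryAffine

/-- Extension of a map `p` from alphabets of sizes `2q, q` to sizes `2q', q'`: an old left label
`a < 2q` goes to `p a`, a new left label `a ≥ 2q` goes to the new right label `a / 2 ≥ q`. -/
def ext {q q' : ℕ} (h : q ≤ q') (p : Fin (2 * q) → Fin q) (a : Fin (2 * q')) : Fin q' :=
  if ha : a.val < 2 * q then ⟨(p ⟨a.val, ha⟩).val, lt_of_lt_of_le (p ⟨a.val, ha⟩).isLt h⟩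
  else ⟨a.val / 2, by have := a.isLt; omega⟩

/-- First gadget map: `a ↦ a / 2`. -/
def rho1 {q' : ℕ} (a : Fin (2 * q')) : Fin q' := ⟨a.val / 2, by have := a.isLt; omega⟩

/-- The cyclic shift of the labels `q-1, q, ..., q'-1`; the labels below `q-1` are fixed. -/
def sgA (q q' x : ℕ) : ℕ := if x + 1 < q then x else if x + 1 = q' then q - 1 else x + 1

/-- The cyclic shift of the labels `0, q, ..., q'-1`; the labels `1, ..., q-1` are fixed. -/
def sgB (q q' x : ℕ) : ℕ :=
  if x = 0 then q else if x < q then x else if x + 1 = q' then 0 else x + 1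

theorem sgA_lt {q q' x : ℕ} (_hq : 2 ≤ q) (hq' : q < q') (hx : x < q') : sgA q q' x < q' := by
  unfold sgA; split_ifs <;> omega

theorem sgB_lt {q q' x : ℕ} (_hq : 2 ≤ q) (hq' : q < q') (hx : x < q') : sgB q q' x < q' := by
  unfold sgB; split_ifs <;> omega

/-- Second gadget map: an even label `2x` goes to `sgA x`, an odd label `2x+1` to `sgB x`. -/
def rho2 {q q' : ℕ} (hq : 2 ≤ q) (hq' : q < q') (a : Fin (2 * q')) : Fin q' :=
  if a.val % 2 = 0 then ⟨sgA q q' (a.val / 2), sgA_lt hq hq' (by have := a.isLt; omega)⟩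
  else ⟨sgB q q' (a.val / 2), sgB_lt hq hq' (by have := a.isLt; omega)⟩

def sgAinv (q q' y : ℕ) : ℕ := if y + 1 < q then y else if y + 1 = q then q' - 1 else y - 1

def sgBinv (q q' y : ℕ) : ℕ :=
  if y = 0 then q' - 1 else if y < q then y else if y = q then 0 else y - 1

theorem sgA_iff {q q' x y : ℕ} (hq : 2 ≤ q) (hq' : q < q') (hx : x < q') (hy : y < q') :
    sgA q q' x = y ↔ x = sgAinv q q' y := by
  unfold sgA sgAinv; split_ifs <;> omega

theorem sgB_iff {q q' x y : ℕ} (hq : 2 ≤ q) (hq' : q < q') (hx : x < q') (hy : y < q') :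
    sgB q q' x = y ↔ x = sgBinv q q' y := by
  unfold sgB sgBinv; split_ifs <;> omega

theorem sgAinv_lt {q q' y : ℕ} (hq : 2 ≤ q) (hq' : q < q') (hy : y < q') : sgAinv q q' y < q' := by
  unfold sgAinv; split_ifs <;> omega

theorem sgBinv_lt {q q' y : ℕ} (hq : 2 ≤ q) (hq' : q < q') (hy : y < q') : sgBinv q q' y < q' := by
  unfold sgBinv; split_ifs <;> omega

theorem rho1_fibre {q' : ℕ} (b : Fin q') :
    (univ.filter (fun a : Fin (2 * q') => rho1 a = b)).card = 2 := by
  have hb := b.isLt
  have : univ.filter (fun a : Fin (2 * q') => rho1 a = b)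
      = {⟨2 * b.val, by omega⟩, ⟨2 * b.val + 1, by omega⟩} := by
    ext a
    simp only [mem_filter, mem_univ, true_and, mem_insert, mem_singleton, rho1, Fin.ext_iff]
    omega
  rw [this, card_pair]
  simp [Fin.ext_iff]

theorem rho2_fibre {q q' : ℕ} (hq : 2 ≤ q) (hq' : q < q') (b : Fin q') :
    (univ.filter (fun a : Fin (2 * q') => rho2 hq hq' a = b)).card = 2 := by
  have hb := b.isLt
  have h1 := sgAinv_lt hq hq' hb
  have h2 := sgBinv_lt hq hq' hb
  have : univ.filter (fun a : Fin (2 * q') => rho2 hq hq' a = b)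
      = {⟨2 * sgAinv q q' b.val, by omega⟩, ⟨2 * sgBinv q q' b.val + 1, by omega⟩} := by
    ext a
    have ha := a.isLt
    have ha2 : a.val / 2 < q' := by omega
    simp only [mem_filter, mem_univ, true_and, mem_insert, mem_singleton]
    unfold rho2
    by_cases hpar : a.val % 2 = 0
    · rw [if_pos hpar]
      simp only [Fin.ext_iff]
      rw [sgA_iff hq hq' ha2 hb]
      omega
    · rw [if_neg hpar]
      simp only [Fin.ext_iff]
      rw [sgB_iff hq hq' ha2 hb]
      omega
  rw [this, card_pair]
  simp only [ne_eq, Fin.ext_iff]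
  omega

theorem ext_fibre {q q' : ℕ} (h : q ≤ q') (p : Fin (2 * q) → Fin q)
    (hp : ∀ b, (univ.filter (fun a => p a = b)).card = 2) (b : Fin q') :
    (univ.filter (fun a : Fin (2 * q') => ext h p a = b)).card = 2 := by
  have hb := b.isLt
  by_cases hbq : b.val < q
  · obtain ⟨x, y, hxy, hs⟩ := Finset.card_eq_two.1 (hp ⟨b.val, hbq⟩)
    have hx := x.isLt
    have hy := y.isLt
    have : univ.filter (fun a : Fin (2 * q') => ext h p a = b)
        = {⟨x.val, by omega⟩, ⟨y.val, by omega⟩} := by
      ext a
      simp only [mem_filter, mem_univ, true_and, mem_insert, mem_singleton]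
      unfold ext
      by_cases ha : a.val < 2 * q
      · rw [dif_pos ha]
        have hm : (⟨a.val, ha⟩ : Fin (2 * q)) ∈ univ.filter (fun a => p a = ⟨b.val, hbq⟩) ↔
            (⟨a.val, ha⟩ : Fin (2 * q)) ∈ ({x, y} : Finset (Fin (2 * q))) := by rw [hs]
        simp only [mem_filter, mem_univ, true_and, mem_insert, mem_singleton, Fin.ext_iff] at hm
        simp only [Fin.ext_iff]
        exact hm
      · rw [dif_neg ha]
        simp only [Fin.ext_iff]
        omega
    rw [this, card_pair]
    simp only [ne_eq, Fin.ext_iff]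
    exact fun h' => hxy (Fin.ext h')
  · have : univ.filter (fun a : Fin (2 * q') => ext h p a = b)
        = {⟨2 * b.val, by omega⟩, ⟨2 * b.val + 1, by omega⟩} := by
      ext a
      simp only [mem_filter, mem_univ, true_and, mem_insert, mem_singleton]
      unfold ext
      by_cases ha : a.val < 2 * q
      · rw [dif_pos ha]
        have := (p ⟨a.val, ha⟩).isLt
        simp only [Fin.ext_iff]
        omega
      · rw [dif_neg ha]
        simp only [Fin.ext_iff]
        omega
    rw [this, card_pair]
    simp [Fin.ext_iff]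

/-- The lifted game with alphabets of sizes `2q', q'`.  Left vertices: the old ones and one new
vertex `inr v` for each right vertex `v`.  Each constraint `e` of `G` is replaced by three
constraints of probability `mu e / 3`: `(e,0)` joins `src e` to `tgt e` with the extended map,
`(e,1)` and `(e,2)` join the new vertex `inr (tgt e)` to `tgt e` with the maps `rho1`, `rho2`. -/
noncomputable def lift {q q' : ℕ} (hq : 2 ≤ q) (hq' : q < q') {U V E : Type} [Fintype E]
    (G : Game q U V E) : Game q' (U ⊕ V) V (E × Fin 3) where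
  src := fun x => if x.2 = 0 then Sum.inl (G.src x.1) else Sum.inr (G.tgt x.1)
  tgt := fun x => G.tgt x.1
  proj := fun x => if x.2 = 0 then ext hq'.le (G.proj x.1) else
    if x.2 = 1 then rho1 else rho2 hq hq'
  fibre := by
    intro x b
    by_cases h0 : x.2 = 0
    · simp only [if_pos h0]
      exact ext_fibre hq'.le _ (G.fibre x.1) b
    · by_cases h1 : x.2 = 1
      · simp only [if_neg h0, if_pos h1]
        exact rho1_fibre b
      · simp only [if_neg h0, if_neg h1]
        exact rho2_fibre hq hq' b
  mu := fun x => G.mu x.1 / 3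
  mu_nonneg := fun x => div_nonneg (G.mu_nonneg x.1) (by norm_num)
  mu_sum := by
    rw [Fintype.sum_prod_type]
    simp only [Finset.sum_const, Finset.card_univ, Fintype.card_fin, nsmul_eq_mul]
    rw [← Finset.mul_sum, ← Finset.sum_div, G.mu_sum]
    norm_num

variable {q q' : ℕ} {U V E : Type} [Fintype E]

theorem val_lift (hq : 2 ≤ q) (hq' : q < q') (G : Game q U V E)
    (A' : U ⊕ V → Fin (2 * q')) (B' : V → Fin q') :
    (lift hq hq' G).val A' B' = ∑ e, (G.mu e / 3) *
      ((if ext hq'.le (G.proj e) (A' (Sum.inl (G.src e))) = B' (G.tgt e) then (1 : ℝ) else 0)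
        + (if rho1 (A' (Sum.inr (G.tgt e))) = B' (G.tgt e) then (1 : ℝ) else 0)
        + (if rho2 hq hq' (A' (Sum.inr (G.tgt e))) = B' (G.tgt e) then (1 : ℝ) else 0)) := by
  unfold Game.val lift
  rw [Fintype.sum_prod_type]
  apply Finset.sum_congr rfl
  intro e _
  rw [Fin.sum_univ_three]
  simp only [Fin.isValue, if_true, one_ne_zero, if_false, Fin.reduceEq]
  split_ifs <;> ring

/-- no left label is sent to the same new right label by both gadget maps -/
theorem gadget_bad (hq : 2 ≤ q) (hq' : q < q') (a : Fin (2 * q')) (b : Fin q') (hb : q ≤ b.val)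
    (h1 : rho1 a = b) (h2 : rho2 hq hq' a = b) : False := by
  have hbl := b.isLt
  unfold rho1 at h1
  unfold rho2 at h2
  rw [Fin.ext_iff] at h1
  simp only at h1
  by_cases hpar : a.val % 2 = 0
  · rw [if_pos hpar, Fin.ext_iff] at h2
    simp only [sgA] at h2
    split_ifs at h2 <;> omega
  · rw [if_neg hpar, Fin.ext_iff] at h2
    simp only [sgB] at h2
    split_ifs at h2 <;> omega

/-- each old right label has a left label sent to it by both gadget maps -/
theorem gadget_good (hq : 2 ≤ q) (hq' : q < q') (b : Fin q') (hb : b.val < q) :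
    ∃ a : Fin (2 * q'), rho1 a = b ∧ rho2 hq hq' a = b := by
  have hbl := b.isLt
  by_cases h : b.val + 1 < q
  · refine ⟨⟨2 * b.val, by omega⟩, ?_, ?_⟩
    · unfold rho1; rw [Fin.ext_iff]; simp only; omega
    · unfold rho2
      rw [if_pos (by simp only; omega), Fin.ext_iff]
      simp only [sgA]
      split_ifs <;> omega
  · refine ⟨⟨2 * b.val + 1, by omega⟩, ?_, ?_⟩
    · unfold rho1; rw [Fin.ext_iff]; simp only; omega
    · unfold rho2
      rw [if_neg (by simp only; omega), Fin.ext_iff]
      simp only [sgB]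
      split_ifs <;> omega

theorem lift_le (hq : 2 ≤ q) (hq' : q < q') (G : Game q U V E)
    (A' : U ⊕ V → Fin (2 * q')) (B' : V → Fin q') :
    (lift hq hq' G).val A' B' ≤ (2 + G.value) / 3 := by
  let A : U → Fin (2 * q) := fun u =>
    if h : (A' (Sum.inl u)).val < 2 * q then ⟨(A' (Sum.inl u)).val, h⟩ else ⟨0, by omega⟩
  let B : V → Fin q := fun v => if h : (B' v).val < q then ⟨(B' v).val, h⟩ else ⟨0, by omega⟩
  have hle : (lift hq hq' G).val A' B' ≤ (2 + G.val A B) / 3 := by
    rw [val_lift]
    have e : (2 + G.val A B) / 3 = ∑ e, (G.mu e / 3) *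
        (2 + if G.proj e (A (G.src e)) = B (G.tgt e) then (1 : ℝ) else 0) := by
      unfold Game.val
      simp only [mul_add, Finset.sum_add_distrib]
      rw [← Finset.sum_mul, ← Finset.sum_div, G.mu_sum, add_div, Finset.sum_div]
      congr 1
      · norm_num
      · apply Finset.sum_congr rfl
        intro e _
        split_ifs <;> ring
    rw [e]
    apply Finset.sum_le_sum
    intro e _
    apply mul_le_mul_of_nonneg_left _ (div_nonneg (G.mu_nonneg e) (by norm_num))
    by_cases hb : (B' (G.tgt e)).val < q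
    · by_cases h0 : ext hq'.le (G.proj e) (A' (Sum.inl (G.src e))) = B' (G.tgt e)
      · have hsat : G.proj e (A (G.src e)) = B (G.tgt e) := by
          unfold ext at h0
          by_cases ha : (A' (Sum.inl (G.src e))).val < 2 * q
          · rw [dif_pos ha, Fin.ext_iff] at h0
            simp only [A, B, dif_pos ha, dif_pos hb]
            rw [Fin.ext_iff]
            exact h0
          · rw [dif_neg ha, Fin.ext_iff] at h0
            simp only at h0
            omega
        rw [if_pos hsat]
        split_ifs <;> norm_num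
      · rw [if_neg h0]
        split_ifs <;> norm_num
    · by_cases h1 : rho1 (A' (Sum.inr (G.tgt e))) = B' (G.tgt e)
      · by_cases h2 : rho2 hq hq' (A' (Sum.inr (G.tgt e))) = B' (G.tgt e)
        · exact (gadget_bad hq hq' _ _ (by omega) h1 h2).elim
        · rw [if_neg h2]
          split_ifs <;> norm_num
      · rw [if_neg h1]
        split_ifs <;> norm_num
  have := val_le_value G A B
  linarith

theorem le_lift (hq : 2 ≤ q) (hq' : q < q') (G : Game q U V E)
    (A : U → Fin (2 * q)) (B : V → Fin q) :
    (2 + G.val A B) / 3 ≤ (lift hq hq' G).value := by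
  have hgood : ∀ v, ∃ a : Fin (2 * q'), rho1 a = (⟨(B v).val, by have := (B v).isLt; omega⟩ : Fin q')
      ∧ rho2 hq hq' a = ⟨(B v).val, by have := (B v).isLt; omega⟩ :=
    fun v => gadget_good hq hq' _ (B v).isLt
  choose w hw1 hw2 using hgood
  let A' : U ⊕ V → Fin (2 * q') := fun x => match x with
    | Sum.inl u => ⟨(A u).val, by have := (A u).isLt; omega⟩
    | Sum.inr v => w v
  let B' : V → Fin q' := fun v => ⟨(B v).val, by have := (B v).isLt; omega⟩
  have hval : (lift hq hq' G).val A' B' = (2 + G.val A B) / 3 := by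
    rw [val_lift]
    unfold Game.val
    rw [add_div, Finset.sum_div]
    have h2 : (2 : ℝ) / 3 = ∑ e, G.mu e / 3 * 2 := by
      rw [← Finset.sum_mul, ← Finset.sum_div, G.mu_sum]; norm_num
    rw [h2, ← Finset.sum_add_distrib]
    apply Finset.sum_congr rfl
    intro e _
    have e1 : rho1 (A' (Sum.inr (G.tgt e))) = B' (G.tgt e) := hw1 _
    have e2 : rho2 hq hq' (A' (Sum.inr (G.tgt e))) = B' (G.tgt e) := hw2 _
    have e0 : ext hq'.le (G.proj e) (A' (Sum.inl (G.src e))) = B' (G.tgt e) ↔
        G.proj e (A (G.src e)) = B (G.tgt e) := by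
      unfold ext
      have ha : (A' (Sum.inl (G.src e))).val < 2 * q := (A (G.src e)).isLt
      rw [dif_pos ha]
      simp only [A', B', Fin.ext_iff]
    rw [if_pos e1, if_pos e2]
    by_cases h : G.proj e (A (G.src e)) = B (G.tgt e)
    · rw [if_pos h, if_pos (e0.2 h)]; ring
    · rw [if_neg h, if_neg (fun h' => h (e0.1 h'))]; ring
  rw [← hval]
  exact val_le_value _ A' B'

theorem value_lift (hq : 2 ≤ q) (hq' : q < q') (G : Game q U V E) :
    (lift hq hq' G).value = (2 + G.value) / 3 := by
  have : NeZero q := ⟨by omega⟩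
  have : NeZero (2 * q) := ⟨by omega⟩
  have : NeZero q' := ⟨by omega⟩
  have : NeZero (2 * q') := ⟨by omega⟩
  apply le_antisymm
  · exact ciSup_le (fun L => lift_le hq hq' G L.1 L.2)
  · have h : G.value ≤ 3 * (lift hq hq' G).value - 2 := by
      apply ciSup_le
      intro L
      have := le_lift hq hq' G L.1 L.2
      linarith
    linarith

/-- Alphabet lifting: for `2 ≤ q < q'` the explicit game `lift G` over the alphabets of sizes
`2q', q'` has value exactly `(2 + value G) / 3`; so perfect completeness is preserved in both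
directions and a gap `(1, s)` becomes a gap `(1, (2 + s) / 3)`. -/
theorem result (q q' : ℕ) (hq : 2 ≤ q) (hq' : q < q') (U V E : Type) [Finite U] [Finite V]
    [Fintype E] (G : Game q U V E) :
    (lift hq hq' G).value = (2 + G.value) / 3 ∧
    (G.value = 1 ↔ (lift hq hq' G).value = 1) ∧
    ∀ s : ℝ, G.value ≤ s → (lift hq hq' G).value ≤ (2 + s) / 3 := by
  have h := value_lift hq hq' G
  refine ⟨h, ?_, ?_⟩
  · rw [h]
    constructor
    · intro h1; rw [h1]; norm_num
    · intro h1; linarith
  · intro s hs
    rw [h]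
    linarith

end Vale.Agent.Results.P339.A0_AllAlphabets
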