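import Mathlib

namespace Vale.Agent.Results.P339.A_AlphabetLift

open Finset

/-- A 2-to-1 game with alphabets `Fin (2 * q)` (left) and `Fin q` (right), vertex sets `U`, `V`,
constraint index set `E`: constraint `e` joins `src e` to `tgt e`, carries the map `proj e`
all of whose fibres have exactly two elements, and has probability `mu e`. -/
structure Game (q : ℕ) (U V E : Type) [Fintype E] where
  src : E → U
  tgt : E → V
  proj : E → Fin (2 * q) → Fin q
  fibre : ∀ e b, (univ.filter (fun a => proj e a = b)).card = 2
  mu : E → ℝ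
  mu_nonneg : ∀ e, 0 ≤ mu e
  mu_sum : ∑ e, mu e = 1

/-- The probability that a random constraint is satisfied by the labeling `A`, `B`. -/
noncomputable def Game.val {q : ℕ} {U V E : Type} [Fintype E] (G : Game q U V E)
    (A : U → Fin (2 * q)) (B : V → Fin q) : ℝ :=
  ∑ e, if G.proj e (A (G.src e)) = B (G.tgt e) then G.mu e else 0

/-- The value of the game: the supremum (a maximum, for finite `U`, `V`) over all labelings. -/
noncomputable def Game.value {q : ℕ} {U V E : Type} [Fintype E] (G : Game q U V E) : ℝ :=
  ⨆ L : (U → Fin (2 * q)) × (V → Fin q), G.val L.1 L.2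

/-- The `2 * t` fresh left labels of the larger alphabet: `2q-1, 2q, ..., 2q+2t-2`. -/
abbrev Fresh (q t a : ℕ) : Prop := 2 * q ≤ a + 1 ∧ a + 2 ≤ 2 * q + 2 * t

/-- The old left label named by a label of the larger alphabet that is not fresh: the last label
`2(q+t)-1` names `2q-1`, a label `a < 2q-1` names itself (fresh labels get the value `0`). -/
def back {q : ℕ} (hq : 0 < q) (t : ℕ) (a : Fin (2 * (q + t))) : Fin (2 * q) :=
  ⟨if a.val + 1 < 2 * q then a.val else if a.val + 1 = 2 * (q + t) then 2 * q - 1 else 0, by
    split_ifs <;> omega⟩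

/-- The new name of an old left label: `2q-1` becomes `2(q+t)-1`, all others keep their name. -/
def emb (q t : ℕ) (j : Fin (2 * q)) : Fin (2 * (q + t)) :=
  ⟨if j.val + 1 = 2 * q then 2 * (q + t) - 1 else j.val, by
    have := j.isLt
    split_ifs <;> omega⟩

/-- The extension of a constraint map `p` to the larger alphabets: on old labels it is `p`, and the
fresh labels `2q-1+2i`, `2q+2i` go to the fresh right label `q+i`. -/
def ext {q : ℕ} (hq : 0 < q) (t : ℕ) (p : Fin (2 * q) → Fin q) (a : Fin (2 * (q + t))) :
    Fin (q + t) :=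
  ⟨if Fresh q t a.val then q + (a.val + 1 - 2 * q) / 2 else (p (back hq t a)).val, by
    have h1 := (p (back hq t a)).isLt
    have h2 := a.isLt
    by_cases hf : Fresh q t a.val
    · rw [if_pos hf]
      unfold Fresh at hf
      omega
    · rw [if_neg hf]
      omega⟩

/-- First test map: `a ↦ a / 2`. -/
def rho1 (q t : ℕ) (a : Fin (2 * (q + t))) : Fin (q + t) :=
  ⟨a.val / 2, by have := a.isLt; omega⟩

/-- The involution of the larger left alphabet exchanging the fresh labels `2q-1+2i` and `2q+2i`. -/
def swp (q t : ℕ) (a : Fin (2 * (q + t))) : Fin (2 * (q + t)) :=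
  ⟨if Fresh q t a.val then (if a.val % 2 = 1 then a.val + 1 else a.val - 1) else a.val, by
    have := a.isLt
    by_cases hf : Fresh q t a.val
    · rw [if_pos hf]
      unfold Fresh at hf
      split_ifs <;> omega
    · rw [if_neg hf]
      omega⟩

/-- Second test map: `a ↦ (swp a) / 2`; it agrees with `rho1` exactly on the labels that are not
fresh. -/
def rho2 (q t : ℕ) (a : Fin (2 * (q + t))) : Fin (q + t) := rho1 q t (swp q t a)

theorem rho1_fibre (q t : ℕ) (b : Fin (q + t)) :
    (univ.filter (fun a => rho1 q t a = b)).card = 2 := by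
  have hb := b.isLt
  rw [Finset.card_eq_two]
  refine ⟨⟨2 * b.val, by omega⟩, ⟨2 * b.val + 1, by omega⟩, ?_, ?_⟩
  · intro h
    have := congrArg Fin.val h
    simp at this
  · ext a
    simp only [Finset.mem_filter, Finset.mem_univ, true_and, Finset.mem_insert,
      Finset.mem_singleton, rho1, Fin.ext_iff]
    omega

theorem swp_swp (q t : ℕ) (a : Fin (2 * (q + t))) : swp q t (swp q t a) = a := by
  have := a.isLt
  apply Fin.ext
  simp only [swp, Fresh]
  split_ifs <;> omega

theorem rho2_fibre (q t : ℕ) (b : Fin (q + t)) :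
    (univ.filter (fun a => rho2 q t a = b)).card = 2 := by
  refine Eq.trans ?_ (rho1_fibre q t b)
  refine Finset.card_equiv (Function.Involutive.toPerm (swp q t) (swp_swp q t)) ?_
  intro a
  rw [Finset.mem_filter, Finset.mem_filter]
  simp only [Finset.mem_univ, true_and]
  exact Iff.rfl

theorem rho_ne {q : ℕ} (hq : 0 < q) (t : ℕ) (a : Fin (2 * (q + t))) (h : Fresh q t a.val) :
    rho1 q t a ≠ rho2 q t a := by
  intro h2
  have h3 : a.val / 2 = (swp q t a).val / 2 := congrArg Fin.val h2
  simp only [swp, if_pos h] at h3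
  unfold Fresh at h
  split_ifs at h3 <;> omega

theorem emb_not_fresh (q t : ℕ) (j : Fin (2 * q)) : ¬ Fresh q t (emb q t j).val := by
  have := j.isLt
  simp only [emb, Fresh]
  split_ifs <;> omega

theorem rho_eq (q t : ℕ) (a : Fin (2 * (q + t))) (h : ¬ Fresh q t a.val) :
    rho2 q t a = rho1 q t a := by
  apply Fin.ext
  simp only [rho1, rho2, swp, if_neg h]

theorem back_emb {q : ℕ} (hq : 0 < q) (t : ℕ) (j : Fin (2 * q)) : back hq t (emb q t j) = j := by
  have := j.isLt
  apply Fin.ext
  simp only [back, emb]
  split_ifs <;> omega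

theorem emb_back {q : ℕ} (hq : 0 < q) (t : ℕ) (a : Fin (2 * (q + t)))
    (h : ¬ Fresh q t a.val) : emb q t (back hq t a) = a := by
  have := a.isLt
  apply Fin.ext
  unfold Fresh at h
  simp only [back, emb]
  split_ifs <;> omega

theorem ext_old {q : ℕ} (hq : 0 < q) (t : ℕ) (p : Fin (2 * q) → Fin q) (a : Fin (2 * (q + t)))
    (h : ¬ Fresh q t a.val) : (ext hq t p a).val = (p (back hq t a)).val := by
  simp only [ext, if_neg h]

theorem ext_emb {q : ℕ} (hq : 0 < q) (t : ℕ) (p : Fin (2 * q) → Fin q) (j : Fin (2 * q)) :
    (ext hq t p (emb q t j)).val = (p j).val := by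
  rw [ext_old hq t p _ (emb_not_fresh q t j), back_emb]

theorem ext_fibre {q : ℕ} (hq : 0 < q) (t : ℕ) (p : Fin (2 * q) → Fin q)
    (hp : ∀ b, (univ.filter (fun a => p a = b)).card = 2) (b : Fin (q + t)) :
    (univ.filter (fun a => ext hq t p a = b)).card = 2 := by
  have hb := b.isLt
  by_cases hbq : b.val < q
  · obtain ⟨x, y, hxy, hs⟩ := Finset.card_eq_two.1 (hp ⟨b.val, hbq⟩)
    have hmem : ∀ j, p j = ⟨b.val, hbq⟩ ↔ j = x ∨ j = y := by
      intro j
      have := Finset.ext_iff.1 hs j
      simpa using this
    rw [Finset.card_eq_two]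
    refine ⟨emb q t x, emb q t y, ?_, ?_⟩
    · intro h
      apply hxy
      rw [← back_emb hq t x, ← back_emb hq t y, h]
    · ext a
      simp only [Finset.mem_filter, Finset.mem_univ, true_and, Finset.mem_insert,
        Finset.mem_singleton]
      constructor
      · intro h
        have hv := congrArg Fin.val h
        have hnf : ¬ Fresh q t a.val := by
          intro hf
          simp only [ext, if_pos hf] at hv
          omega
        rw [ext_old hq t p a hnf] at hv
        have h1 : p (back hq t a) = ⟨b.val, hbq⟩ := Fin.ext hv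
        rcases (hmem _).1 h1 with h2 | h2
        · left; rw [← h2, emb_back hq t a hnf]
        · right; rw [← h2, emb_back hq t a hnf]
      · rintro (h | h)
        · apply Fin.ext
          rw [h, ext_emb]
          have := (hmem x).2 (Or.inl rfl)
          rw [this]
        · apply Fin.ext
          rw [h, ext_emb]
          have := (hmem y).2 (Or.inr rfl)
          rw [this]
  · rw [Finset.card_eq_two]
    refine ⟨⟨2 * b.val - 1, by omega⟩, ⟨2 * b.val, by omega⟩, ?_, ?_⟩
    · intro h
      have := congrArg Fin.val h
      simp only at this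
      omega
    · ext a
      have ha := a.isLt
      have h1 := (p (back hq t a)).isLt
      simp only [Finset.mem_filter, Finset.mem_univ, true_and, Finset.mem_insert,
        Finset.mem_singleton, ext, Fin.ext_iff, Fresh]
      split_ifs <;> omega

/-- The lifted game on the alphabets `Fin (2 * (q + t))`, `Fin (q + t)`: every constraint
`e = (u, v, p)` of `G` is replaced by three constraints of probability `mu e / 3`: the extended
constraint `(u, v, ext p)` and the two test constraints `(u, w_u, rho1)`, `(u, w_u, rho2)`, where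
`w_u` is a new right vertex attached to `u`. -/
noncomputable def lift {q : ℕ} (hq : 0 < q) (t : ℕ) {U V E : Type} [Fintype E]
    (G : Game q U V E) : Game (q + t) U (V ⊕ U) (E × Fin 3) where
  src := fun x => G.src x.1
  tgt := fun x => if x.2 = 0 then Sum.inl (G.tgt x.1) else Sum.inr (G.src x.1)
  proj := fun x => if x.2 = 0 then ext hq t (G.proj x.1) else
    if x.2 = 1 then rho1 q t else rho2 q t
  fibre := by
    intro x b
    by_cases h0 : x.2 = 0
    · simp only [if_pos h0]
      exact ext_fibre hq t _ (G.fibre x.1) b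
    · by_cases h1 : x.2 = 1
      · simp only [if_neg h0, if_pos h1]
        exact rho1_fibre q t b
      · simp only [if_neg h0, if_neg h1]
        exact rho2_fibre q t b
  mu := fun x => G.mu x.1 / 3
  mu_nonneg := fun x => div_nonneg (G.mu_nonneg x.1) (by norm_num)
  mu_sum := by
    rw [Fintype.sum_prod_type]
    simp only [Finset.sum_const, Finset.card_univ, Fintype.card_fin, nsmul_eq_mul]
    rw [← Finset.mul_sum, ← Finset.sum_div, G.mu_sum]
    norm_num

variable {q : ℕ} {U V E : Type} [Fintype E]

theorem val_le_one (G : Game q U V E) (A : U → Fin (2 * q)) (B : V → Fin q) : G.val A B ≤ 1 := by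
  unfold Game.val
  rw [← G.mu_sum]
  apply Finset.sum_le_sum
  intro e _
  split_ifs
  · exact le_rfl
  · exact G.mu_nonneg e

theorem bdd (G : Game q U V E) :
    BddAbove (Set.range fun L : (U → Fin (2 * q)) × (V → Fin q) => G.val L.1 L.2) := by
  refine ⟨1, ?_⟩
  rintro _ ⟨L, rfl⟩
  exact val_le_one G L.1 L.2

theorem val_le_value (G : Game q U V E) (A : U → Fin (2 * q)) (B : V → Fin q) :
    G.val A B ≤ G.value :=
  le_ciSup (bdd G) (A, B)

theorem lift_val (hq : 0 < q) (t : ℕ) (G : Game q U V E) (A' : U → Fin (2 * (q + t)))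
    (B' : V ⊕ U → Fin (q + t)) :
    (lift hq t G).val A' B' = ∑ e,
      ((if ext hq t (G.proj e) (A' (G.src e)) = B' (Sum.inl (G.tgt e)) then G.mu e / 3 else 0)
      + (if rho1 q t (A' (G.src e)) = B' (Sum.inr (G.src e)) then G.mu e / 3 else 0)
      + (if rho2 q t (A' (G.src e)) = B' (Sum.inr (G.src e)) then G.mu e / 3 else 0)) := by
  unfold Game.val
  rw [Fintype.sum_prod_type]
  apply Finset.sum_congr rfl
  intro e _
  rw [Fin.sum_univ_three]
  simp [lift]

/-- The labeling of `G` read off from a labeling of the lifted game. -/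
def pullA (hq : 0 < q) (t : ℕ) (A' : U → Fin (2 * (q + t))) : U → Fin (2 * q) :=
  fun u => back hq t (A' u)

/-- The right labeling of `G` read off from a labeling of the lifted game. -/
def pullB (hq : 0 < q) (t : ℕ) (B' : V ⊕ U → Fin (q + t)) : V → Fin q :=
  fun v => if h : (B' (Sum.inl v)).val < q then ⟨(B' (Sum.inl v)).val, h⟩ else ⟨0, hq⟩

theorem lift_val_le_pull (hq : 0 < q) (t : ℕ) (G : Game q U V E) (A' : U → Fin (2 * (q + t)))
    (B' : V ⊕ U → Fin (q + t)) :
    (lift hq t G).val A' B' ≤ (2 + G.val (pullA hq t A') (pullB hq t B')) / 3 := by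
  rw [lift_val]
  have key : ∀ e,
      ((if ext hq t (G.proj e) (A' (G.src e)) = B' (Sum.inl (G.tgt e)) then G.mu e / 3 else 0)
      + (if rho1 q t (A' (G.src e)) = B' (Sum.inr (G.src e)) then G.mu e / 3 else 0)
      + (if rho2 q t (A' (G.src e)) = B' (Sum.inr (G.src e)) then G.mu e / 3 else 0))
      ≤ 2 * G.mu e / 3 + (if G.proj e (pullA hq t A' (G.src e)) = pullB hq t B' (G.tgt e)
          then G.mu e else 0) / 3 := by
    intro e
    have hm := G.mu_nonneg e
    by_cases hc : G.proj e (pullA hq t A' (G.src e)) = pullB hq t B' (G.tgt e)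
    · rw [if_pos hc]
      split_ifs <;> linarith
    · rw [if_neg hc]
      by_cases h1 : rho1 q t (A' (G.src e)) = B' (Sum.inr (G.src e))
      · by_cases h2 : rho2 q t (A' (G.src e)) = B' (Sum.inr (G.src e))
        · have hnf : ¬ Fresh q t (A' (G.src e)).val :=
            fun hf => rho_ne hq t _ hf (h1.trans h2.symm)
          have h0 : ¬ ext hq t (G.proj e) (A' (G.src e)) = B' (Sum.inl (G.tgt e)) := by
            intro h0
            apply hc
            have hv := congrArg Fin.val h0
            rw [ext_old hq t _ _ hnf] at hv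
            have hlt : (B' (Sum.inl (G.tgt e))).val < q := by
              rw [← hv]
              exact (G.proj e _).isLt
            apply Fin.ext
            simp only [pullB, dif_pos hlt]
            exact hv
          rw [if_neg h0, if_pos h1, if_pos h2]
          linarith
        · rw [if_neg h2]
          split_ifs <;> linarith
      · rw [if_neg h1]
        split_ifs <;> linarith
  calc _ ≤ ∑ e, (2 * G.mu e / 3 + (if G.proj e (pullA hq t A' (G.src e))
            = pullB hq t B' (G.tgt e) then G.mu e else 0) / 3) :=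
        Finset.sum_le_sum (fun e _ => key e)
    _ = (2 + G.val (pullA hq t A') (pullB hq t B')) / 3 := by
        rw [Finset.sum_add_distrib, ← Finset.sum_div, ← Finset.sum_div, ← Finset.mul_sum,
          G.mu_sum]
        unfold Game.val
        ring

/-- The labeling of the lifted game built from a labeling of `G`. -/
def pushA (t : ℕ) (A : U → Fin (2 * q)) : U → Fin (2 * (q + t)) :=
  fun u => emb q t (A u)

/-- The right labeling of the lifted game built from a labeling of `G`. -/
def pushB (t : ℕ) (A : U → Fin (2 * q)) (B : V → Fin q) : V ⊕ U → Fin (q + t) :=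
  Sum.elim (fun v => ⟨(B v).val, by have := (B v).isLt; omega⟩)
    (fun u => rho1 q t (emb q t (A u)))

theorem push_val_le (hq : 0 < q) (t : ℕ) (G : Game q U V E) (A : U → Fin (2 * q))
    (B : V → Fin q) :
    (2 + G.val A B) / 3 ≤ (lift hq t G).val (pushA t A) (pushB t A B) := by
  rw [lift_val]
  have key : ∀ e, 2 * G.mu e / 3 + (if G.proj e (A (G.src e)) = B (G.tgt e)
          then G.mu e else 0) / 3 ≤
      ((if ext hq t (G.proj e) (pushA t A (G.src e)) = pushB t A B (Sum.inl (G.tgt e))
          then G.mu e / 3 else 0)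
      + (if rho1 q t (pushA t A (G.src e)) = pushB t A B (Sum.inr (G.src e))
          then G.mu e / 3 else 0)
      + (if rho2 q t (pushA t A (G.src e)) = pushB t A B (Sum.inr (G.src e))
          then G.mu e / 3 else 0)) := by
    intro e
    have hm := G.mu_nonneg e
    have h1 : rho1 q t (pushA t A (G.src e)) = pushB t A B (Sum.inr (G.src e)) := rfl
    have h2 : rho2 q t (pushA t A (G.src e)) = pushB t A B (Sum.inr (G.src e)) :=
      rho_eq q t _ (emb_not_fresh q t _)
    rw [if_pos h1, if_pos h2]
    by_cases hc : G.proj e (A (G.src e)) = B (G.tgt e)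
    · have h0 : ext hq t (G.proj e) (pushA t A (G.src e)) = pushB t A B (Sum.inl (G.tgt e)) := by
        apply Fin.ext
        simp only [pushA, pushB, Sum.elim_inl]
        rw [ext_emb, hc]
      rw [if_pos hc, if_pos h0]
      linarith
    · rw [if_neg hc]
      split_ifs <;> linarith
  calc (2 + G.val A B) / 3 = ∑ e, (2 * G.mu e / 3 + (if G.proj e (A (G.src e)) = B (G.tgt e)
          then G.mu e else 0) / 3) := by
        rw [Finset.sum_add_distrib, ← Finset.sum_div, ← Finset.sum_div, ← Finset.mul_sum,
          G.mu_sum]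
        unfold Game.val
        ring
    _ ≤ _ := Finset.sum_le_sum (fun e _ => key e)

theorem lift_value (hq : 0 < q) (t : ℕ) (G : Game q U V E) :
    (lift hq t G).value = (2 + G.value) / 3 := by
  have : Nonempty ((U → Fin (2 * q)) × (V → Fin q)) :=
    ⟨(fun _ => ⟨0, by omega⟩, fun _ => ⟨0, hq⟩)⟩
  have : Nonempty ((U → Fin (2 * (q + t))) × (V ⊕ U → Fin (q + t))) :=
    ⟨(fun _ => ⟨0, by omega⟩, fun _ => ⟨0, by omega⟩)⟩
  apply le_antisymm
  · refine ciSup_le (fun L => ?_)
    have h1 := lift_val_le_pull hq t G L.1 L.2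
    have h2 := val_le_value G (pullA hq t L.1) (pullB hq t L.2)
    linarith
  · have h : G.value ≤ 3 * (lift hq t G).value - 2 := by
      refine ciSup_le (fun L => ?_)
      have h1 := push_val_le hq t G L.1 L.2
      have h2 := val_le_value (lift hq t G) (pushA t L.1) (pushB t L.1 L.2)
      linarith
    linarith

/-- For all `q ≥ 2` and all `t`, the explicit local transformation `lift` turns a 2-to-1 game `G`
with alphabets of sizes `2q`, `q` into a 2-to-1 game with alphabets of sizes `2(q+t)`, `q+t` and
three times as many constraints, whose value is exactly `(2 + value G) / 3`. Hence value one is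
preserved in both directions and value at most `s` becomes value at most `(2 + s) / 3`. -/
theorem result :
    ∀ (q t : ℕ) (hq : 2 ≤ q) (U V E : Type) [Finite U] [Finite V] [Fintype E]
      (G : Game q U V E),
      (lift (lt_of_lt_of_le Nat.zero_lt_two hq) t G).value = (2 + G.value) / 3 ∧
      (G.value = 1 ↔ (lift (lt_of_lt_of_le Nat.zero_lt_two hq) t G).value = 1) ∧
      (∀ s : ℝ, G.value ≤ s ↔
        (lift (lt_of_lt_of_le Nat.zero_lt_two hq) t G).value ≤ (2 + s) / 3) := by
  intro q t hq U V E _ _ _ G
  have h := lift_value (lt_of_lt_of_le Nat.zero_lt_two hq) t G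
  refine ⟨h, ?_, ?_⟩
  · rw [h]
    constructor
    · intro h1
      rw [h1]
      norm_num
    · intro h1
      linarith
  · intro s
    rw [h]
    constructor
    · intro h1
      linarith
    · intro h1
      linarith

end Vale.Agent.Results.P339.A_AlphabetLift
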